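import Vale.Agent.Lib.P368.Adv3.Defs

/-!
# P368, three entangling layers: a gate of the first layer without flagged qubits
-/

namespace Vale.Agent.Lib.P368

open Finset

variable {Q : Type} [Fintype Q] [DecidableEq Q]

/-- On an input `y` that vanishes on the qubits of `A`, the gate `A` of the first layer moves
past the matrices of the other qubits. -/
theorem ab_term (ε : Q → Bool → Matrix Bool Bool ℂ) (L0 : Finset (Finset Q)) (A : Finset Q)
    (hA : A ∉ L0) (y : Q → Bool) (hy : ∀ p ∈ A, y p = false) (χ : StateVec Q) :
    czLayer (insert A L0) (oneQubitLayer (fun p => ε p (y p)) χ) =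
      czLayer L0 (oneQubitLayer (fun p => if p ∈ A then 1 else ε p (y p))
        (czLayer {A} (oneQubitLayer (fun p => if p ∈ A then ε p false else 1) χ))) := by
  have h1 : oneQubitLayer (fun p => ε p (y p)) χ =
      oneQubitLayer (fun p => if p ∈ A then 1 else ε p (y p))
        (oneQubitLayer (fun p => if p ∈ A then ε p false else 1) χ) := by
    rw [oneQubitLayer_comp]
    congr 1
    funext p
    by_cases h : p ∈ A
    · simp only [if_pos h, one_mul, hy p h]
    · simp only [if_neg h, mul_one]
  have h2 : ∀ S ∈ ({A} : Finset (Finset Q)), ∀ p ∈ S,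
      (fun p => if p ∈ A then (1 : Matrix Bool Bool ℂ) else ε p (y p)) p = 1 := by
    intro S hS p hp
    rw [Finset.mem_singleton] at hS
    subst hS
    simp only [if_pos hp]
  rw [czLayer_insert A L0 hA, h1, ← oneQubitLayer_czLayer_comm _ {A} h2]

/-- A gate `A` of the first layer that contains no flagged qubit acts on the two vectors: it is
removed from the layer, the matrices on its qubits become the identity, and the vectors are
replaced by the gate applied to the vectors acted on by these matrices. -/
theorem tForm_absorb (τ : Q → Bool) (εa εb : Q → Bool → Matrix Bool Bool ℂ)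
    (L0 : Finset (Finset Q)) (A : Finset Q) (hA : A ∉ L0) (hτ : ∀ p ∈ A, τ p = false)
    (V : Q → Matrix Bool Bool ℂ) (L1 : Finset (Finset Q)) (O : Q → Matrix Bool Bool ℂ)
    (φ ψ : StateVec Q) :
    tForm τ εa εb (insert A L0) V L1 O φ ψ =
      tForm τ (fun p b => if p ∈ A then 1 else εa p b) (fun p b => if p ∈ A then 1 else εb p b)
        L0 V L1 O
        (czLayer {A} (oneQubitLayer (fun p => if p ∈ A then εa p false else 1) φ))
        (czLayer {A} (oneQubitLayer (fun p => if p ∈ A then εb p false else 1) ψ)) := by
  unfold tForm
  refine Finset.sum_congr rfl fun y _ => ?_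
  by_cases hw : wprod τ y = 0
  · rw [hw, Complex.ofReal_zero, zero_mul, zero_mul]
  · have hy : ∀ p ∈ A, y p = false := by
      intro p hp
      have h1 : wt (τ p) (y p) ≠ 0 := by
        unfold wprod at hw
        exact Finset.prod_ne_zero_iff.mp hw p (Finset.mem_univ p)
      rw [hτ p hp] at h1
      cases hyp : y p with
      | false => rfl
      | true =>
        rw [hyp] at h1
        exact absurd (by simp [wt]) h1
    rw [ab_term εa L0 A hA y hy φ, ab_term εb L0 A hA y hy ψ]

end Vale.Agent.Lib.P368
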