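import Vale.Agent.Lib.P368.Adv3.Defs

/-!
# P368, three entangling layers: the form without gates in the first layer
-/

namespace Vale.Agent.Lib.P368

open Finset

variable {Q : Type} [Fintype Q] [DecidableEq Q]

/-- Without gates in the first layer the form is a signed form through one layer, so it is
bounded by the power `k` of `sqrt 2` times the norms of the two vectors, `k` the number of flagged
qubits. -/
theorem tForm_base (τ : Q → Bool) (εa εb : Q → Bool → Matrix Bool Bool ℂ)
    (V : Q → Matrix Bool Bool ℂ) (L1 : Finset (Finset Q)) (m : Q → Matrix Bool Bool ℂ)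
    (hV : ∀ p, V p ∈ Matrix.unitaryGroup Bool ℂ)
    (hL1 : (L1 : Set (Finset Q)).PairwiseDisjoint id)
    (hm : ∀ p, IsRow (m p) ∨ m p ∈ Matrix.unitaryGroup Bool ℂ)
    (hadm : Adm2 τ εa εb) (φ ψ : StateVec Q) :
    ‖tForm τ εa εb ∅ V L1 (fun p => (m p).conjTranspose * m p) φ ψ‖ ≤
      Real.sqrt 2 ^ (univ.filter fun p => τ p = true).card *
        (Real.sqrt (normSqSum φ) * Real.sqrt (normSqSum ψ)) := by
  classical
  obtain ⟨ε0, hε0⟩ : ∃ ε0 : Q → Bool → Matrix Bool Bool ℂ,
      ∀ p b, ε0 p b = if τ p = true then V p * εa p b else 1 := ⟨_, fun _ _ => rfl⟩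
  obtain ⟨Ma, hMa⟩ : ∃ Ma : Q → Matrix Bool Bool ℂ,
      ∀ p, Ma p = if τ p = true then 1 else V p * εa p false := ⟨_, fun _ => rfl⟩
  obtain ⟨Mb, hMb⟩ : ∃ Mb : Q → Matrix Bool Bool ℂ,
      ∀ p, Mb p = if τ p = true then 1 else V p * εb p false := ⟨_, fun _ => rfl⟩
  have hy0 : ∀ y : Q → Bool, wprod τ y ≠ 0 → ∀ p, τ p = false → y p = false := by
    intro y hy p hp
    by_contra hyp
    apply hy
    unfold wprod
    apply Finset.prod_eq_zero (Finset.mem_univ p)
    have hyt : y p = true := by simpa using hyp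
    simp [wt, hp, hyt]
  have hmatA : ∀ y : Q → Bool, wprod τ y ≠ 0 →
      ∀ p, V p * εa p (y p) = ε0 p (y p) * Ma p := by
    intro y hy p
    by_cases hp : τ p = true
    · rw [hε0, hMa, if_pos hp, if_pos hp, mul_one]
    · have hp' : τ p = false := by simpa using hp
      rw [hε0, hMa, if_neg hp, if_neg hp, one_mul, hy0 y hy p hp']
  have hmatB : ∀ y : Q → Bool, wprod τ y ≠ 0 →
      ∀ p, V p * εb p (y p) = ε0 p (y p) * Mb p := by
    intro y hy p
    by_cases hp : τ p = true
    · obtain ⟨u, _, ha, hb⟩ := (hadm p).1 hp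
      rw [hε0, hMb, if_pos hp, if_pos hp, mul_one, ha, hb]
    · have hp' : τ p = false := by simpa using hp
      rw [hε0, hMb, if_neg hp, if_neg hp, one_mul, hy0 y hy p hp']
  have hclaim : tForm τ εa εb ∅ V L1 (fun p => (m p).conjTranspose * m p) φ ψ
      = sForm τ ε0 L1 (fun p => (m p).conjTranspose * m p) (oneQubitLayer Ma φ)
          (oneQubitLayer Mb ψ) := by
    unfold tForm sForm
    apply Finset.sum_congr rfl
    intro y _
    by_cases hy : wprod τ y = 0
    · simp [hy]
    · have e1 : oneQubitLayer V (czLayer ∅ (oneQubitLayer (fun p => εa p (y p)) φ))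
          = oneQubitLayer (fun p => ε0 p (y p)) (oneQubitLayer Ma φ) := by
        rw [czLayer_empty, oneQubitLayer_comp, oneQubitLayer_comp]
        congr 1
        funext p
        exact hmatA y hy p
      have e2 : oneQubitLayer V (czLayer ∅ (oneQubitLayer (fun p => εb p (y p)) ψ))
          = oneQubitLayer (fun p => ε0 p (y p)) (oneQubitLayer Mb ψ) := by
        rw [czLayer_empty, oneQubitLayer_comp, oneQubitLayer_comp]
        congr 1
        funext p
        exact hmatB y hy p
      rw [e1, e2]
  have hadm0 : Adm τ ε0 := by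
    intro p
    constructor
    · intro hp
      obtain ⟨u, hu, ha, _⟩ := (hadm p).1 hp
      refine ⟨V p * u, mul_mem (hV p) hu, ?_⟩
      intro b
      rw [hε0, if_pos hp, ha b, colMat_mul]
    · intro hp
      have hp' : ¬ τ p = true := by simp [hp]
      rw [hε0, if_neg hp']
      exact isContr_one
  have hMa_c : ∀ p, IsContr (Ma p) := by
    intro p
    by_cases hp : τ p = true
    · rw [hMa, if_pos hp]
      exact isContr_one
    · have hp' : τ p = false := by simpa using hp
      rw [hMa, if_neg hp]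
      exact isContr_mul _ _ (isContr_of_unitary _ (hV p)) ((hadm p).2 hp').1
  have hMb_c : ∀ p, IsContr (Mb p) := by
    intro p
    by_cases hp : τ p = true
    · rw [hMb, if_pos hp]
      exact isContr_one
    · have hp' : τ p = false := by simpa using hp
      rw [hMb, if_neg hp]
      exact isContr_mul _ _ (isContr_of_unitary _ (hV p)) ((hadm p).2 hp').2
  rw [hclaim]
  have hb := sForm_bound_sharp L1 hL1 τ ε0 m hadm0 hm (oneQubitLayer Ma φ) (oneQubitLayer Mb ψ)
  refine hb.trans ?_
  have h1 := normSqSum_oneQubitLayer_le Ma hMa_c φ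
  have h2 := normSqSum_oneQubitLayer_le Mb hMb_c ψ
  apply mul_le_mul_of_nonneg_left _ (by positivity)
  exact mul_le_mul (Real.sqrt_le_sqrt h1) (Real.sqrt_le_sqrt h2) (Real.sqrt_nonneg _)
    (Real.sqrt_nonneg _)

end Vale.Agent.Lib.P368
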