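import Vale.Agent.Lib.P368.Adv3.Defs

/-!
# P368, three entangling layers: expanding one gate of the first layer
-/

namespace Vale.Agent.Lib.P368

open Finset

variable {Q : Type} [Fintype Q] [DecidableEq Q]

/-- A layer of multi-controlled `Z` gates applied to a difference. -/
theorem ex_tf_cz_sub (L : Finset (Finset Q)) (f g : StateVec Q) :
    czLayer L (fun z => f z - 2 * g z) = fun z => czLayer L f z - 2 * czLayer L g z := by
  funext z
  unfold czLayer
  ring

/-- The two layers of multi-controlled `Z` gates with the one-qubit layer between them,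
applied to a difference. -/
theorem ex_tf_pipe_sub (L0 L1 : Finset (Finset Q)) (V : Q → Matrix Bool Bool ℂ)
    (f g : StateVec Q) :
    czLayer L1 (oneQubitLayer V (czLayer L0 (fun z => f z - 2 * g z))) =
      fun z => czLayer L1 (oneQubitLayer V (czLayer L0 f)) z -
        2 * czLayer L1 (oneQubitLayer V (czLayer L0 g)) z := by
  rw [ex_tf_cz_sub, gp_layer_sub, ex_tf_cz_sub]

/-- The first layer with one more gate `A`, after the one-qubit matrices of the input `y`. -/
theorem ex_tf_insert (L0 : Finset (Finset Q)) (A : Finset Q) (hA : A ∉ L0)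
    (ε : Q → Bool → Matrix Bool Bool ℂ) (y : Q → Bool) (χ : StateVec Q) :
    czLayer (insert A L0) (oneQubitLayer (fun p => ε p (y p)) χ) =
      czLayer L0 (fun z => oneQubitLayer (fun p => ε p (y p)) χ z -
        2 * oneQubitLayer (fun p => projOn A ε p (y p)) χ z) := by
  have key : (fun p => gp_P A p * ε p (y p)) = fun p => projOn A ε p (y p) := by
    funext p
    unfold gp_P projOn
    split_ifs
    · rfl
    · rw [one_mul]
  rw [czLayer_insert A L0 hA, gp_cz_eq, oneQubitLayer_comp, key]

/-- The term of the input `y` of the form, with one more gate `A` in the first layer. -/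
theorem ex_tf_term (εa εb : Q → Bool → Matrix Bool Bool ℂ)
    (L0 : Finset (Finset Q)) (A : Finset Q) (hA : A ∉ L0) (V : Q → Matrix Bool Bool ℂ)
    (L1 : Finset (Finset Q)) (O : Q → Matrix Bool Bool ℂ) (φ ψ : StateVec Q) (y : Q → Bool) :
    ip (czLayer L1 (oneQubitLayer V (czLayer (insert A L0)
          (oneQubitLayer (fun p => εa p (y p)) φ))))
        (oneQubitLayer O (czLayer L1 (oneQubitLayer V
          (czLayer (insert A L0) (oneQubitLayer (fun p => εb p (y p)) ψ))))) =
      ip (czLayer L1 (oneQubitLayer V (czLayer L0 (oneQubitLayer (fun p => εa p (y p)) φ))))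
          (oneQubitLayer O (czLayer L1 (oneQubitLayer V
            (czLayer L0 (oneQubitLayer (fun p => εb p (y p)) ψ)))))
        - 2 * ip (czLayer L1 (oneQubitLayer V
              (czLayer L0 (oneQubitLayer (fun p => εa p (y p)) φ))))
            (oneQubitLayer O (czLayer L1 (oneQubitLayer V
              (czLayer L0 (oneQubitLayer (fun p => projOn A εb p (y p)) ψ)))))
        - 2 * ip (czLayer L1 (oneQubitLayer V
              (czLayer L0 (oneQubitLayer (fun p => projOn A εa p (y p)) φ))))
            (oneQubitLayer O (czLayer L1 (oneQubitLayer V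
              (czLayer L0 (oneQubitLayer (fun p => εb p (y p)) ψ)))))
        + 4 * ip (czLayer L1 (oneQubitLayer V
              (czLayer L0 (oneQubitLayer (fun p => projOn A εa p (y p)) φ))))
            (oneQubitLayer O (czLayer L1 (oneQubitLayer V
              (czLayer L0 (oneQubitLayer (fun p => projOn A εb p (y p)) ψ))))) := by
  rw [ex_tf_insert L0 A hA εa y φ, ex_tf_insert L0 A hA εb y ψ, ex_tf_pipe_sub, ex_tf_pipe_sub,
    gp_layer_sub, gp_ip_sub_left, gp_ip_sub_right, gp_ip_sub_right]
  ring

/-- A gate `A` of the first layer is expanded as the identity minus twice the projector onto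
`1` on its qubits, on both sides. -/
theorem tForm_expand (τ : Q → Bool) (εa εb : Q → Bool → Matrix Bool Bool ℂ)
    (L0 : Finset (Finset Q)) (A : Finset Q) (hA : A ∉ L0) (V : Q → Matrix Bool Bool ℂ)
    (L1 : Finset (Finset Q)) (O : Q → Matrix Bool Bool ℂ) (φ ψ : StateVec Q) :
    tForm τ εa εb (insert A L0) V L1 O φ ψ =
      tForm τ εa εb L0 V L1 O φ ψ
        - 2 * tForm τ εa (projOn A εb) L0 V L1 O φ ψ
        - 2 * tForm τ (projOn A εa) εb L0 V L1 O φ ψ
        + 4 * tForm τ (projOn A εa) (projOn A εb) L0 V L1 O φ ψ := by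
  unfold tForm
  rw [Finset.mul_sum, Finset.mul_sum, Finset.mul_sum, ← Finset.sum_sub_distrib,
    ← Finset.sum_sub_distrib, ← Finset.sum_add_distrib]
  refine Finset.sum_congr rfl fun y _ => ?_
  rw [ex_tf_term εa εb L0 A hA V L1 O φ ψ y]
  ring

/-- Exchanging the two arguments of the pairing conjugates it. -/
theorem ex_tf_ip_conj (a b : StateVec Q) : ip a b = (starRingEnd ℂ) (ip b a) := by
  unfold ip
  rw [map_sum]
  refine Finset.sum_congr rfl fun z _ => ?_
  rw [map_mul, Complex.conj_conj, mul_comm]

/-- The pairing through a layer of self-adjoint one-qubit matrices. -/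
theorem ex_tf_ip_herm (O : Q → Matrix Bool Bool ℂ) (hO : ∀ p, (O p).conjTranspose = O p)
    (X Y : StateVec Q) :
    ip X (oneQubitLayer O Y) = (starRingEnd ℂ) (ip Y (oneQubitLayer O X)) := by
  have h : (fun p => (O p).conjTranspose) = O := funext hO
  rw [ip_adj, h]
  exact ex_tf_ip_conj _ _

/-- Exchanging the two sides conjugates the form, when the matrices `O p` are self-adjoint. -/
theorem tForm_conj (τ : Q → Bool) (εa εb : Q → Bool → Matrix Bool Bool ℂ)
    (L0 : Finset (Finset Q)) (V : Q → Matrix Bool Bool ℂ)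
    (L1 : Finset (Finset Q)) (O : Q → Matrix Bool Bool ℂ)
    (hO : ∀ p, (O p).conjTranspose = O p) (φ ψ : StateVec Q) :
    tForm τ εa εb L0 V L1 O φ ψ = (starRingEnd ℂ) (tForm τ εb εa L0 V L1 O ψ φ) := by
  unfold tForm
  rw [map_sum]
  refine Finset.sum_congr rfl fun y _ => ?_
  rw [map_mul, Complex.conj_ofReal, ex_tf_ip_herm O hO]

end Vale.Agent.Lib.P368
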