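import Vale.Agent.Lib.P368.Adv3.Defs

/-!
# P368, three entangling layers: summing the bits of flagged qubits whose first side is a
scalar times a fixed matrix
-/

namespace Vale.Agent.Lib.P368

open Finset

variable {Q : Type} [Fintype Q] [DecidableEq Q]

/-- Scalars on every qubit can be pulled out of a layer. -/
theorem uf_layer_smul_fam (c : Q → ℂ) (M : Q → Matrix Bool Bool ℂ) (χ : StateVec Q) :
    oneQubitLayer (fun p => c p • M p) χ = (∏ p, c p) • oneQubitLayer M χ := by
  funext z
  simp only [oneQubitLayer_apply, Pi.smul_apply, smul_eq_mul, Matrix.smul_apply,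
    Finset.mul_sum]
  refine Finset.sum_congr rfl fun w _ => ?_
  rw [Finset.prod_mul_distrib]
  ring

/-- The pairing is conjugate homogeneous in its first argument. -/
theorem uf_ip_smul_left (t : ℂ) (X Z : StateVec Q) :
    ip (t • X) Z = (starRingEnd ℂ) t * ip X Z := by
  unfold ip
  simp only [Pi.smul_apply, smul_eq_mul, map_mul, Finset.mul_sum]
  refine Finset.sum_congr rfl fun z _ => ?_
  ring

/-- The pairing through the two layers once the matrices on the qubits of `C` are removed
from the second side and replaced by `B` on the first side. -/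
noncomputable def uf_Phi (εa εb : Q → Bool → Matrix Bool Bool ℂ) (L0 : Finset (Finset Q))
    (V : Q → Matrix Bool Bool ℂ) (L1 : Finset (Finset Q)) (O : Q → Matrix Bool Bool ℂ)
    (C : Finset Q) (B : Q → Matrix Bool Bool ℂ) (φ : StateVec Q) (y : Q → Bool)
    (χ : StateVec Q) : ℂ :=
  ip (czLayer L1 (oneQubitLayer V (czLayer L0
      (oneQubitLayer (fun p => if p ∈ C then B p else εa p (y p)) φ))))
    (oneQubitLayer O (czLayer L1 (oneQubitLayer V (czLayer L0
      (oneQubitLayer (fun p => if p ∈ C then 1 else εb p (y p)) χ)))))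

theorem uf_Phi_add (εa εb : Q → Bool → Matrix Bool Bool ℂ) (L0 : Finset (Finset Q))
    (V : Q → Matrix Bool Bool ℂ) (L1 : Finset (Finset Q)) (O : Q → Matrix Bool Bool ℂ)
    (C : Finset Q) (B : Q → Matrix Bool Bool ℂ) (φ : StateVec Q) (y : Q → Bool)
    (a b : StateVec Q) :
    uf_Phi εa εb L0 V L1 O C B φ y (a + b)
      = uf_Phi εa εb L0 V L1 O C B φ y a + uf_Phi εa εb L0 V L1 O C B φ y b := by
  unfold uf_Phi
  rw [pe_layer_add, pe_cz_add, pe_layer_add, pe_cz_add, pe_layer_add, pe_ip_add]

theorem uf_Phi_smul (εa εb : Q → Bool → Matrix Bool Bool ℂ) (L0 : Finset (Finset Q))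
    (V : Q → Matrix Bool Bool ℂ) (L1 : Finset (Finset Q)) (O : Q → Matrix Bool Bool ℂ)
    (C : Finset Q) (B : Q → Matrix Bool Bool ℂ) (φ : StateVec Q) (y : Q → Bool)
    (t : ℂ) (a : StateVec Q) :
    uf_Phi εa εb L0 V L1 O C B φ y (t • a) = t * uf_Phi εa εb L0 V L1 O C B φ y a := by
  unfold uf_Phi
  rw [pe_layer_smul, pe_cz_smul, pe_layer_smul, pe_cz_smul, pe_layer_smul, pe_ip_smul]

theorem uf_Phi_loc (εa εb : Q → Bool → Matrix Bool Bool ℂ) (L0 : Finset (Finset Q))
    (V : Q → Matrix Bool Bool ℂ) (L1 : Finset (Finset Q)) (O : Q → Matrix Bool Bool ℂ)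
    (C : Finset Q) (B : Q → Matrix Bool Bool ℂ) (φ : StateVec Q) (y y' : Q → Bool)
    (h : ∀ p, p ∉ C → y p = y' p) :
    uf_Phi εa εb L0 V L1 O C B φ y = uf_Phi εa εb L0 V L1 O C B φ y' := by
  have he1 : (fun p => if p ∈ C then B p else εa p (y p)) =
      fun p => if p ∈ C then B p else εa p (y' p) := by
    funext p
    by_cases hp : p ∈ C
    · simp [hp]
    · simp [hp, h p hp]
  have he2 : (fun p => if p ∈ C then (1 : Matrix Bool Bool ℂ) else εb p (y p)) =
      fun p => if p ∈ C then 1 else εb p (y' p) := by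
    funext p
    by_cases hp : p ∈ C
    · simp [hp]
    · simp [hp, h p hp]
  funext χ
  unfold uf_Phi
  rw [he1, he2]

/-- One term of the form, with the scalars of the first side moved to the second side. -/
theorem uf_term (εa εb : Q → Bool → Matrix Bool Bool ℂ) (L0 : Finset (Finset Q))
    (V : Q → Matrix Bool Bool ℂ) (L1 : Finset (Finset Q)) (O : Q → Matrix Bool Bool ℂ)
    (C : Finset Q) (s : Q → Bool → ℂ) (B : Q → Matrix Bool Bool ℂ)
    (ha : ∀ p ∈ C, ∀ b, εa p b = s p b • B p) (φ ψ : StateVec Q) (y : Q → Bool) :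
    ip (czLayer L1 (oneQubitLayer V (czLayer L0 (oneQubitLayer (fun p => εa p (y p)) φ))))
        (oneQubitLayer O (czLayer L1 (oneQubitLayer V
          (czLayer L0 (oneQubitLayer (fun p => εb p (y p)) ψ)))))
      = uf_Phi εa εb L0 V L1 O C B φ y (oneQubitLayer
          (fun p => if p ∈ C then (starRingEnd ℂ) (s p (y p)) • εb p (y p) else 1) ψ) := by
  have h1 : (fun p => εa p (y p)) = fun p =>
      (if p ∈ C then s p (y p) else 1) • (if p ∈ C then B p else εa p (y p)) := by
    funext p
    by_cases hp : p ∈ C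
    · simp only [hp, if_true]
      exact ha p hp (y p)
    · simp only [hp, if_false, one_smul]
  have h2 : oneQubitLayer (fun p => εb p (y p)) ψ =
      oneQubitLayer (fun p => if p ∈ C then 1 else εb p (y p))
        (oneQubitLayer (fun p => if p ∈ C then εb p (y p) else 1) ψ) := by
    rw [oneQubitLayer_comp]
    congr 1
    funext p
    by_cases hp : p ∈ C
    · simp only [hp, if_true, one_mul]
    · simp only [hp, if_false, mul_one]
  have h3 : (fun p => if p ∈ C then (starRingEnd ℂ) (s p (y p)) • εb p (y p)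
        else (1 : Matrix Bool Bool ℂ)) = fun p =>
      (starRingEnd ℂ) (if p ∈ C then s p (y p) else 1) •
        (if p ∈ C then εb p (y p) else 1) := by
    funext p
    by_cases hp : p ∈ C
    · simp only [hp, if_true]
    · simp only [hp, if_false, map_one, one_smul]
  rw [h1, uf_layer_smul_fam, pe_cz_smul, pe_layer_smul, pe_cz_smul, uf_ip_smul_left, h2, h3,
    uf_layer_smul_fam, uf_Phi_smul, ← map_prod (starRingEnd ℂ)]
  rfl

/-- If on the flagged qubits of `C` the matrices of the first side are scalars `s p b` times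
fixed matrices `B p`, the bits of these qubits can be summed: the qubits of `C` lose their
flags, the first side keeps `B p` and the second side gets the signed sum of the matrices
`conj (s p b) • εb p b`. -/
theorem tForm_unflag (τ : Q → Bool) (εa εb : Q → Bool → Matrix Bool Bool ℂ)
    (L0 : Finset (Finset Q)) (V : Q → Matrix Bool Bool ℂ) (L1 : Finset (Finset Q))
    (O : Q → Matrix Bool Bool ℂ) (C : Finset Q) (s : Q → Bool → ℂ)
    (B : Q → Matrix Bool Bool ℂ) (hC : ∀ p ∈ C, τ p = true)
    (ha : ∀ p ∈ C, ∀ b, εa p b = s p b • B p) (φ ψ : StateVec Q) :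
    tForm τ εa εb L0 V L1 O φ ψ =
      tForm (fun p => if p ∈ C then false else τ p)
        (fun p b => if p ∈ C then B p else εa p b)
        (fun p b => if p ∈ C then
          ∑ c : Bool, ((wt true c : ℝ) : ℂ) • ((starRingEnd ℂ) (s p c) • εb p c) else εb p b)
        L0 V L1 O φ ψ := by
  have key := sum_wprod_layer τ C (fun p b => (starRingEnd ℂ) (s p b) • εb p b)
    (uf_Phi εa εb L0 V L1 O C B φ) (uf_Phi_add εa εb L0 V L1 O C B φ)
    (uf_Phi_smul εa εb L0 V L1 O C B φ) (uf_Phi_loc εa εb L0 V L1 O C B φ) ψ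
  have hlhs : tForm τ εa εb L0 V L1 O φ ψ = ∑ y : Q → Bool, ((wprod τ y : ℝ) : ℂ) *
      uf_Phi εa εb L0 V L1 O C B φ y (oneQubitLayer
        (fun p => if p ∈ C then (starRingEnd ℂ) (s p (y p)) • εb p (y p) else 1) ψ) := by
    unfold tForm
    exact Finset.sum_congr rfl (fun y _ => by rw [uf_term εa εb L0 V L1 O C s B ha φ ψ y])
  have hrhs : tForm (fun p => if p ∈ C then false else τ p)
      (fun p b => if p ∈ C then B p else εa p b)
      (fun p b => if p ∈ C then
        ∑ c : Bool, ((wt true c : ℝ) : ℂ) • ((starRingEnd ℂ) (s p c) • εb p c) else εb p b)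
      L0 V L1 O φ ψ = ∑ y : Q → Bool,
        ((wprod (fun p => if p ∈ C then false else τ p) y : ℝ) : ℂ) *
          uf_Phi εa εb L0 V L1 O C B φ y (oneQubitLayer (fun p => if p ∈ C then
            ∑ b : Bool, ((wt (τ p) b : ℝ) : ℂ) • ((starRingEnd ℂ) (s p b) • εb p b)
            else 1) ψ) := by
    unfold tForm
    refine Finset.sum_congr rfl (fun y _ => ?_)
    have h4 : oneQubitLayer (fun p => if p ∈ C then
          ∑ c : Bool, ((wt true c : ℝ) : ℂ) • ((starRingEnd ℂ) (s p c) • εb p c)
          else εb p (y p)) ψ =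
        oneQubitLayer (fun p => if p ∈ C then 1 else εb p (y p))
          (oneQubitLayer (fun p => if p ∈ C then
            ∑ b : Bool, ((wt (τ p) b : ℝ) : ℂ) • ((starRingEnd ℂ) (s p b) • εb p b)
            else 1) ψ) := by
      rw [oneQubitLayer_comp]
      congr 1
      funext p
      by_cases hp : p ∈ C
      · simp only [hp, if_true, one_mul, hC p hp]
      · simp only [hp, if_false, mul_one]
    unfold uf_Phi
    rw [← h4]
  rw [hlhs, hrhs]
  exact key

end Vale.Agent.Lib.P368
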