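import Vale.Agent.Lib.P368.Adv3.Mats
import Vale.Agent.Lib.P368.Adv3.Expand
import Vale.Agent.Lib.P368.Adv3.Unflag
import Vale.Agent.Lib.P368.Adv3.Absorb
import Vale.Agent.Lib.P368.Adv3.Base

/-!
# P368, three entangling layers: the bound on the signed form through two layers
-/

namespace Vale.Agent.Lib.P368

open Finset

variable {Q : Type} [Fintype Q] [DecidableEq Q]

/-- The norm of the combination with coefficients `1`, `-2`, `-2`, `4`. -/
theorem b3_norm4 (a b c d : ℂ) :
    ‖a - 2 * b - 2 * c + 4 * d‖ ≤ ‖a‖ + 2 * ‖b‖ + 2 * ‖c‖ + 4 * ‖d‖ := by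
  have h2 : ‖(2 : ℂ) * b‖ = 2 * ‖b‖ := by
    rw [norm_mul]
    norm_num
  have h3 : ‖(2 : ℂ) * c‖ = 2 * ‖c‖ := by
    rw [norm_mul]
    norm_num
  have h4 : ‖(4 : ℂ) * d‖ = 4 * ‖d‖ := by
    rw [norm_mul]
    norm_num
  have s1 : ‖a - 2 * b - 2 * c + 4 * d‖ ≤ ‖a - 2 * b - 2 * c‖ + ‖4 * d‖ := norm_add_le _ _
  have s2 : ‖a - 2 * b - 2 * c‖ ≤ ‖a - 2 * b‖ + ‖2 * c‖ := norm_sub_le _ _
  have s3 : ‖a - 2 * b‖ ≤ ‖a‖ + ‖2 * b‖ := norm_sub_le _ _
  linarith

/-- The flagged qubits split into those outside the flagged qubits of `A` and the flagged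
qubits of `A`. -/
theorem b3_count (τ : Q → Bool) (A : Finset Q) :
    (univ.filter fun p =>
        (if p ∈ A.filter (fun p => τ p = true) then false else τ p) = true).card
      + (A.filter fun p => τ p = true).card = (univ.filter fun p => τ p = true).card := by
  have h1 : (univ.filter fun p =>
        (if p ∈ A.filter (fun p => τ p = true) then false else τ p) = true)
      = (univ.filter fun p => τ p = true).filter fun p => ¬ p ∈ A := by
    ext p
    by_cases hp : p ∈ A
    · by_cases ht : τ p = true
      · simp [hp, ht]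
      · simp [hp, ht]
    · simp [hp]
  have h2 : (A.filter fun p => τ p = true)
      = (univ.filter fun p => τ p = true).filter fun p => p ∈ A := by
    ext p
    simp [and_comm]
  rw [h1, h2, add_comm]
  exact Finset.card_filter_add_card_filter_not _

/-- A term of the expansion with the projector on the first side: the flagged qubits of `A`
lose their flags. -/
theorem b3_pterm (L0' : Finset (Finset Q)) (V : Q → Matrix Bool Bool ℂ)
    (L1 : Finset (Finset Q)) (O : Q → Matrix Bool Bool ℂ)
    (IH : ∀ (τ : Q → Bool) (εa εb : Q → Bool → Matrix Bool Bool ℂ), Adm2 τ εa εb →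
      ∀ φ ψ : StateVec Q, ‖tForm τ εa εb L0' V L1 O φ ψ‖ ≤
        gfProd τ L0' * Real.sqrt 2 ^ (univ.filter fun p => τ p = true).card *
          (Real.sqrt (normSqSum φ) * Real.sqrt (normSqSum ψ)))
    (A : Finset Q) (hdisj : ∀ S ∈ L0', Disjoint S A)
    (τ : Q → Bool) (εa εb X : Q → Bool → Matrix Bool Bool ℂ) (hadm : Adm2 τ εa εb)
    (hX1 : ∀ p, p ∉ A → ∀ b, X p b = εb p b)
    (hX2 : ∀ p ∈ A, τ p = true → ∀ u ∈ Matrix.unitaryGroup Bool ℂ,
      (∀ b, εa p b = colMat u b) → (∀ b, εb p b = colMat u b) →
      IsContr (∑ c : Bool, ((wt true c : ℝ) : ℂ) • ((starRingEnd ℂ) (u true c) • X p c)))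
    (hX3 : ∀ p, τ p = false → IsContr (X p false))
    (φ ψ : StateVec Q) :
    ‖tForm τ (projOn A εa) X L0' V L1 O φ ψ‖ ≤
      gfProd τ L0' * Real.sqrt 2 ^ (univ.filter fun p =>
          (if p ∈ A.filter (fun p => τ p = true) then false else τ p) = true).card *
        (Real.sqrt (normSqSum φ) * Real.sqrt (normSqSum ψ)) := by
  have hex : ∀ p, ∃ u : Matrix Bool Bool ℂ, τ p = true →
      (u ∈ Matrix.unitaryGroup Bool ℂ ∧ (∀ b, εa p b = colMat u b) ∧
        ∀ b, εb p b = colMat u b) := by
    intro p
    by_cases ht : τ p = true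
    · obtain ⟨u, hu, h1, h2⟩ := (hadm p).1 ht
      exact ⟨u, fun _ => ⟨hu, h1, h2⟩⟩
    · exact ⟨1, fun h => absurd h ht⟩
  choose u hu using hex
  have hC : ∀ p ∈ A.filter (fun p => τ p = true), τ p = true :=
    fun p hp => (Finset.mem_filter.mp hp).2
  have hCA : ∀ p ∈ A.filter (fun p => τ p = true), p ∈ A :=
    fun p hp => (Finset.mem_filter.mp hp).1
  have ha : ∀ p ∈ A.filter (fun p => τ p = true), ∀ b,
      projOn A εa p b = u p true b • e10 := by
    intro p hp b
    unfold projOn
    rw [if_pos (hCA p hp), (hu p (hC p hp)).2.1 b, projOne_mul_colMat]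
  rw [tForm_unflag τ (projOn A εa) X L0' V L1 O (A.filter fun p => τ p = true)
    (fun p b => u p true b) (fun _ => e10) hC ha φ ψ]
  have hadm' : Adm2 (fun p => if p ∈ A.filter (fun p => τ p = true) then false else τ p)
      (fun p b => if p ∈ A.filter (fun p => τ p = true) then e10 else projOn A εa p b)
      (fun p b => if p ∈ A.filter (fun p => τ p = true) then
          ∑ c : Bool, ((wt true c : ℝ) : ℂ) • ((starRingEnd ℂ) (u p true c) • X p c)
        else X p b) := by
    intro p
    by_cases hpC : p ∈ A.filter (fun p => τ p = true)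
    · constructor
      · intro ht
        exact absurd ht (by simp [hpC])
      · intro _
        simp only [hpC, if_true]
        exact ⟨isContr_e10, hX2 p (hCA p hpC) (hC p hpC) (u p) (hu p (hC p hpC)).1
          (hu p (hC p hpC)).2.1 (hu p (hC p hpC)).2.2⟩
    · constructor
      · intro ht
        simp only [hpC, if_false] at ht
        have hpA : p ∉ A := fun h => hpC (Finset.mem_filter.mpr ⟨h, ht⟩)
        refine ⟨u p, (hu p ht).1, fun b => ?_, fun b => ?_⟩
        · simp only [hpC, if_false]
          unfold projOn
          rw [if_neg hpA]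
          exact (hu p ht).2.1 b
        · simp only [hpC, if_false]
          rw [hX1 p hpA b]
          exact (hu p ht).2.2 b
      · intro hf
        simp only [hpC, if_false] at hf ⊢
        refine ⟨?_, hX3 p hf⟩
        unfold projOn
        split_ifs
        · exact isContr_mul _ _ isContr_projOne ((hadm p).2 hf).1
        · exact ((hadm p).2 hf).1
  have h := IH _ _ _ hadm' φ ψ
  have hG : gfProd (fun p => if p ∈ A.filter (fun p => τ p = true) then false else τ p) L0'
      = gfProd τ L0' := by
    unfold gfProd
    refine Finset.prod_congr rfl (fun S hS => ?_)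
    have e : (S.filter fun p =>
        (if p ∈ A.filter (fun p => τ p = true) then false else τ p) = true)
        = S.filter fun p => τ p = true := by
      refine Finset.filter_congr (fun p hp => ?_)
      have hpA : p ∉ A := Finset.disjoint_left.mp (hdisj S hS) hp
      have hpC : p ∉ A.filter (fun p => τ p = true) :=
        fun h => hpA (Finset.mem_filter.mp h).1
      simp only [hpC, if_false]
    rw [e]
  rw [hG] at h
  exact h

/-- The signed form through two layers of multi-controlled `Z` gates with pairwise disjoint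
supports: each gate of the first layer with `k ≥ 1` flagged qubits costs a factor
`1 + 8 / (sqrt 2)^k`. -/
theorem tForm_bound (L0 : Finset (Finset Q)) (hL0 : (L0 : Set (Finset Q)).PairwiseDisjoint id)
    (V : Q → Matrix Bool Bool ℂ) (L1 : Finset (Finset Q)) (m : Q → Matrix Bool Bool ℂ)
    (hV : ∀ p, V p ∈ Matrix.unitaryGroup Bool ℂ)
    (hL1 : (L1 : Set (Finset Q)).PairwiseDisjoint id)
    (hm : ∀ p, IsRow (m p) ∨ m p ∈ Matrix.unitaryGroup Bool ℂ)
    (τ : Q → Bool) (εa εb : Q → Bool → Matrix Bool Bool ℂ) (hadm : Adm2 τ εa εb)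
    (φ ψ : StateVec Q) :
    ‖tForm τ εa εb L0 V L1 (fun p => (m p).conjTranspose * m p) φ ψ‖ ≤
      gfProd τ L0 * Real.sqrt 2 ^ (univ.filter fun p => τ p = true).card *
        (Real.sqrt (normSqSum φ) * Real.sqrt (normSqSum ψ)) := by
  have hO : ∀ p, ((m p).conjTranspose * m p).conjTranspose = (m p).conjTranspose * m p :=
    fun p => by rw [Matrix.conjTranspose_mul, Matrix.conjTranspose_conjTranspose]
  revert hL0 τ εa εb hadm φ ψ
  induction L0 using Finset.induction_on with
  | empty =>
    intro _ τ εa εb hadm φ ψ
    have h := tForm_base τ εa εb V L1 m hV hL1 hm hadm φ ψ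
    have e : gfProd τ (∅ : Finset (Finset Q)) = 1 := by
      unfold gfProd
      exact Finset.prod_empty
    rw [e, one_mul]
    exact h
  | insert A L0' hA ih =>
    intro hL0 τ εa εb hadm φ ψ
    have hL0' : ((L0' : Finset (Finset Q)) : Set (Finset Q)).PairwiseDisjoint id :=
      hL0.subset (Finset.coe_subset.mpr (Finset.subset_insert A L0'))
    have hdisj : ∀ S ∈ L0', Disjoint S A := by
      intro S hS
      exact hL0 (Finset.mem_coe.mpr (Finset.mem_insert_of_mem hS))
        (Finset.mem_coe.mpr (Finset.mem_insert_self A L0')) (ne_of_mem_of_not_mem hS hA)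
    have IH := ih hL0'
    have hGnn : 0 ≤ gfProd τ L0' := Finset.prod_nonneg (fun S _ => gf_nonneg _)
    have hins : gfProd τ (insert A L0')
        = gf (A.filter fun p => τ p = true).card * gfProd τ L0' := by
      unfold gfProd
      exact Finset.prod_insert hA
    rw [hins]
    by_cases hkA : (A.filter fun p => τ p = true).card = 0
    · have hτA : ∀ p ∈ A, τ p = false := by
        intro p hp
        by_contra hne
        have ht : τ p = true := by simpa using hne
        have hmem : p ∈ A.filter fun p => τ p = true := Finset.mem_filter.mpr ⟨hp, ht⟩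
        rw [Finset.card_eq_zero.mp hkA] at hmem
        exact absurd hmem (Finset.notMem_empty p)
      rw [hkA, tForm_absorb τ εa εb L0' A hA hτA V L1 _ φ ψ]
      have hadm' : Adm2 τ (fun p b => if p ∈ A then 1 else εa p b)
          (fun p b => if p ∈ A then 1 else εb p b) := by
        intro p
        by_cases hp : p ∈ A
        · constructor
          · intro ht
            rw [hτA p hp] at ht
            exact absurd ht (by simp)
          · intro _
            simp only [hp, if_true]
            exact ⟨isContr_one, isContr_one⟩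
        · constructor
          · intro ht
            obtain ⟨u, hu, h1, h2⟩ := (hadm p).1 ht
            refine ⟨u, hu, fun b => ?_, fun b => ?_⟩
            · simp only [hp, if_false]
              exact h1 b
            · simp only [hp, if_false]
              exact h2 b
          · intro hf
            simp only [hp, if_false]
            exact (hadm p).2 hf
      have h := IH τ _ _ hadm'
        (czLayer {A} (oneQubitLayer (fun p => if p ∈ A then εa p false else 1) φ))
        (czLayer {A} (oneQubitLayer (fun p => if p ∈ A then εb p false else 1) ψ))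
      refine h.trans ?_
      have hgf0 : gf 0 = 1 := by
        unfold gf
        simp
      rw [hgf0, one_mul]
      have hφ : normSqSum (czLayer {A}
          (oneQubitLayer (fun p => if p ∈ A then εa p false else 1) φ)) ≤ normSqSum φ := by
        rw [normSqSum_czLayer]
        refine normSqSum_oneQubitLayer_le _ (fun p => ?_) φ
        show IsContr (if p ∈ A then εa p false else 1)
        split_ifs with hp
        · exact ((hadm p).2 (hτA p hp)).1
        · exact isContr_one
      have hψ : normSqSum (czLayer {A}
          (oneQubitLayer (fun p => if p ∈ A then εb p false else 1) ψ)) ≤ normSqSum ψ := by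
        rw [normSqSum_czLayer]
        refine normSqSum_oneQubitLayer_le _ (fun p => ?_) ψ
        show IsContr (if p ∈ A then εb p false else 1)
        split_ifs with hp
        · exact ((hadm p).2 (hτA p hp)).2
        · exact isContr_one
      have h1 := Real.sqrt_le_sqrt hφ
      have h2 := Real.sqrt_le_sqrt hψ
      have hpos : 0 ≤ gfProd τ L0' * Real.sqrt 2 ^ (univ.filter fun p => τ p = true).card :=
        mul_nonneg hGnn (by positivity)
      exact mul_le_mul_of_nonneg_left
        (mul_le_mul h1 h2 (Real.sqrt_nonneg _) (Real.sqrt_nonneg _)) hpos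
    · rw [tForm_expand τ εa εb L0' A hA V L1 _ φ ψ]
      have h11 := IH τ εa εb hadm φ ψ
      have hadm_sym : Adm2 τ εb εa := by
        intro p
        refine ⟨fun ht => ?_, fun hf => ?_⟩
        · obtain ⟨u, hu, h1, h2⟩ := (hadm p).1 ht
          exact ⟨u, hu, h2, h1⟩
        · exact ⟨((hadm p).2 hf).2, ((hadm p).2 hf).1⟩
      have hP1 := b3_pterm L0' V L1 _ IH A hdisj τ εa εb εb hadm (fun _ _ _ => rfl)
        (fun p _ _ u hu _ hb => by
          have e : (∑ c : Bool, ((wt true c : ℝ) : ℂ) • ((starRingEnd ℂ) (u true c) • εb p c))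
              = nMat u := by
            unfold nMat
            exact Finset.sum_congr rfl (fun c _ => by rw [hb c])
          rw [e]
          exact isContr_nMat u hu)
        (fun p hf => ((hadm p).2 hf).2) φ ψ
      have hPP := b3_pterm L0' V L1 _ IH A hdisj τ εa εb (projOn A εb) hadm
        (fun p hp b => by
          unfold projOn
          rw [if_neg hp])
        (fun p hp _ u hu _ hb => by
          have e : (∑ c : Bool, ((wt true c : ℝ) : ℂ) •
              ((starRingEnd ℂ) (u true c) • projOn A εb p c)) = ppMat u := by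
            unfold ppMat
            refine Finset.sum_congr rfl (fun c _ => ?_)
            have e1 : projOn A εb p c = u true c • e10 := by
              unfold projOn
              rw [if_pos hp, hb c, projOne_mul_colMat]
            rw [e1]
          rw [e]
          exact isContr_ppMat u hu)
        (fun p hf => by
          unfold projOn
          split_ifs
          · exact isContr_mul _ _ isContr_projOne ((hadm p).2 hf).2
          · exact ((hadm p).2 hf).2) φ ψ
      have h1P' := b3_pterm L0' V L1 _ IH A hdisj τ εb εa εa hadm_sym (fun _ _ _ => rfl)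
        (fun p _ _ u hu _ hb => by
          have e : (∑ c : Bool, ((wt true c : ℝ) : ℂ) • ((starRingEnd ℂ) (u true c) • εa p c))
              = nMat u := by
            unfold nMat
            exact Finset.sum_congr rfl (fun c _ => by rw [hb c])
          rw [e]
          exact isContr_nMat u hu)
        (fun p hf => ((hadm p).2 hf).1) ψ φ
      have h1P : ‖tForm τ εa (projOn A εb) L0' V L1
          (fun p => (m p).conjTranspose * m p) φ ψ‖ ≤
          gfProd τ L0' * Real.sqrt 2 ^ (univ.filter fun p =>
              (if p ∈ A.filter (fun p => τ p = true) then false else τ p) = true).card *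
            (Real.sqrt (normSqSum φ) * Real.sqrt (normSqSum ψ)) := by
        rw [tForm_conj τ εa (projOn A εb) L0' V L1 _ hO φ ψ, RCLike.norm_conj,
          mul_comm (Real.sqrt (normSqSum φ))]
        exact h1P'
      have hk := b3_count τ A
      have hb4 := b3_norm4 (tForm τ εa εb L0' V L1 (fun p => (m p).conjTranspose * m p) φ ψ)
        (tForm τ εa (projOn A εb) L0' V L1 (fun p => (m p).conjTranspose * m p) φ ψ)
        (tForm τ (projOn A εa) εb L0' V L1 (fun p => (m p).conjTranspose * m p) φ ψ)
        (tForm τ (projOn A εa) (projOn A εb) L0' V L1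
          (fun p => (m p).conjTranspose * m p) φ ψ)
      refine hb4.trans ?_
      obtain ⟨s, hs⟩ : ∃ s : ℝ, s = Real.sqrt 2 := ⟨_, rfl⟩
      have hspos : 0 < s := by
        rw [hs]
        positivity
      have hgf : gf (A.filter fun p => τ p = true).card
          = 1 + 8 / s ^ (A.filter fun p => τ p = true).card := by
        unfold gf
        rw [if_neg hkA, hs]
      rw [hgf]
      rw [← hs] at h11 hP1 hPP h1P ⊢
      obtain ⟨N, hN⟩ : ∃ N : ℝ, N = Real.sqrt (normSqSum φ) * Real.sqrt (normSqSum ψ) :=
        ⟨_, rfl⟩
      have hNnn : 0 ≤ N := by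
        rw [hN]
        positivity
      rw [← hN] at h11 hP1 hPP h1P ⊢
      obtain ⟨G, hG⟩ : ∃ G : ℝ, G = gfProd τ L0' := ⟨_, rfl⟩
      rw [← hG] at h11 hP1 hPP h1P hGnn ⊢
      obtain ⟨k1, hk1⟩ : ∃ k1 : ℕ, k1 = (univ.filter fun p =>
          (if p ∈ A.filter (fun p => τ p = true) then false else τ p) = true).card :=
        ⟨_, rfl⟩
      obtain ⟨kA, hkA'⟩ : ∃ kA : ℕ, kA = (A.filter fun p => τ p = true).card := ⟨_, rfl⟩
      rw [← hk1, ← hkA'] at hk
      rw [← hk1] at hP1 hPP h1P
      rw [← hkA', ← hk]
      rw [← hk] at h11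
      have hpow : s ^ (k1 + kA) = s ^ k1 * s ^ kA := pow_add s k1 kA
      rw [hpow] at h11 ⊢
      have hsA : 0 < s ^ kA := by positivity
      have e : (1 + 8 / s ^ kA) * G * (s ^ k1 * s ^ kA) * N
          = G * (s ^ k1 * s ^ kA) * N + 8 * (G * s ^ k1 * N) := by
        field_simp
      rw [e]
      linarith

end Vale.Agent.Lib.P368
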