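import Vale.Agent.Lib.P368.Adv3.Defs

/-!
# P368, three entangling layers: the product of the factors of the gates of the first layer, in
terms of the generalized Toffoli gates of the layer
-/

namespace Vale.Agent.Lib.P368

open Finset

variable {Q : Type} [Fintype Q] [DecidableEq Q]

omit [Fintype Q] in
/-- The number of flagged qubits of a set is the number of inputs located in it. -/
theorem cnt_card_filter {n : ℕ} (inp : Fin n ↪ Q) (A : Finset Q) :
    (A.filter fun p => inTau inp p = true).card = (univ.filter fun j => inp j ∈ A).card := by
  rw [← Finset.card_map inp]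
  congr 1
  ext p
  simp only [Finset.mem_filter, Finset.mem_map, Finset.mem_univ, true_and, inTau,
    decide_eq_true_eq]
  constructor
  · rintro ⟨hp, j, rfl⟩
    exact ⟨j, hp, rfl⟩
  · rintro ⟨j, hj, rfl⟩
    exact ⟨hj, j, rfl⟩

theorem gfProd_supports {n : ℕ} (inp : Fin n ↪ Q) (l : List (TGate Q))
    (hnd : ((l.filter fun g => g.isRight).map TGate.support).Nodup) :
    gfProd (inTau inp) ((l.filter fun g => g.isRight).map TGate.support).toFinset =
      ((l.filter fun g => g.isRight).map fun g =>
        gf (univ.filter fun j => inp j ∈ g.support).card).prod := by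
  unfold gfProd
  rw [List.prod_toFinset _ hnd, List.map_map]
  congr 1
  apply List.map_congr_left
  intro g _
  simp only [Function.comp_apply]
  rw [cnt_card_filter]

end Vale.Agent.Lib.P368
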