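import Vale.Agent.Lib.P368.AdvS.Final

/-!
# P368, three entangling layers: definitions

Conventions used in the comments.  The form `tForm` is the signed sum, over the basis inputs
`y`, of the pairing of `cz_L1 V cz_L0 Λa_y φ` with `O cz_L1 V cz_L0 Λb_y ψ`: two layers `L0`,
`L1` of multi-controlled `Z` gates with a layer `V` of one-qubit matrices between them, and
layers `Λa_y`, `Λb_y` of the one-qubit matrices `εa p (y p)`, `εb p (y p)` in front (they may
differ between the two sides on the qubits that are not flagged).
-/

namespace Vale.Agent.Lib.P368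

open Finset

/-- The matrix `|1><0|`. -/
def e10 : Matrix Bool Bool ℂ := fun i j => if i = true ∧ j = false then 1 else 0

/-- The signed sum over the bit `b` of `conj (u 1 b)` times the matrix whose first column is
the column `b` of `u`. -/
noncomputable def nMat (u : Matrix Bool Bool ℂ) : Matrix Bool Bool ℂ :=
  ∑ b : Bool, ((wt true b : ℝ) : ℂ) • ((starRingEnd ℂ) (u true b) • colMat u b)

/-- The signed sum over the bit `b` of `|u 1 b|^2` times `|1><0|`. -/
noncomputable def ppMat (u : Matrix Bool Bool ℂ) : Matrix Bool Bool ℂ :=
  ∑ b : Bool, ((wt true b : ℝ) : ℂ) • ((starRingEnd ℂ) (u true b) • (u true b • e10))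

/-- The factor of a gate of the first layer with `k` flagged qubits: `1` if `k = 0`, and
`1 + 8 / (sqrt 2)^k` otherwise. -/
noncomputable def gf (k : ℕ) : ℝ := if k = 0 then 1 else 1 + 8 / Real.sqrt 2 ^ k

section

variable {Q : Type} [Fintype Q] [DecidableEq Q]

/-- The signed form through two layers `L0`, `L1` of multi-controlled `Z` gates with the layer
`V` of one-qubit matrices between them. -/
noncomputable def tForm (τ : Q → Bool) (εa εb : Q → Bool → Matrix Bool Bool ℂ)
    (L0 : Finset (Finset Q)) (V : Q → Matrix Bool Bool ℂ) (L1 : Finset (Finset Q))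
    (O : Q → Matrix Bool Bool ℂ) (φ ψ : StateVec Q) : ℂ :=
  ∑ y : Q → Bool, ((wprod τ y : ℝ) : ℂ) *
    ip (czLayer L1 (oneQubitLayer V (czLayer L0 (oneQubitLayer (fun p => εa p (y p)) φ))))
      (oneQubitLayer O (czLayer L1 (oneQubitLayer V
        (czLayer L0 (oneQubitLayer (fun p => εb p (y p)) ψ)))))

/-- Admissible data for the two sides: at a flagged qubit both sides carry the columns of the
same unitary; at the other qubits the matrices `εa p false`, `εb p false` have norm at most
one. -/
def Adm2 (τ : Q → Bool) (εa εb : Q → Bool → Matrix Bool Bool ℂ) : Prop :=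
  ∀ p, (τ p = true → ∃ u : Matrix Bool Bool ℂ, u ∈ Matrix.unitaryGroup Bool ℂ ∧
      (∀ b, εa p b = colMat u b) ∧ ∀ b, εb p b = colMat u b) ∧
    (τ p = false → IsContr (εa p false) ∧ IsContr (εb p false))

/-- The data with the projector onto `1` applied on the qubits of `A`. -/
def projOn (A : Finset Q) (ε : Q → Bool → Matrix Bool Bool ℂ) :
    Q → Bool → Matrix Bool Bool ℂ :=
  fun p b => if p ∈ A then projOne * ε p b else ε p b

/-- The product over the gates of `L0` of the factors of their numbers of flagged qubits. -/
noncomputable def gfProd (τ : Q → Bool) (L0 : Finset (Finset Q)) : ℝ :=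
  ∏ A ∈ L0, gf (A.filter fun p => τ p = true).card

end

end Vale.Agent.Lib.P368
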