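import Vale.Agent.Lib.P368.Adv3.Defs

/-!
# P368, three entangling layers: the normal form of one layer, with the supports of its
generalized Toffoli gates
-/

namespace Vale.Agent.Lib.P368

open Finset

variable {Q : Type} [Fintype Q] [DecidableEq Q]

omit [Fintype Q] in
/-- The support of a layer with one more gate. -/
theorem ns_layerSupport_cons (g : TGate Q) (r : List (TGate Q)) :
    layerSupport (g :: r) = g.support ∪ layerSupport r := rfl

omit [Fintype Q] in
/-- A set disjoint from the supports of all gates of a layer is disjoint from its support. -/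
theorem ns_disjoint_layerSupport (S : Finset Q) (r : List (TGate Q))
    (h : ∀ g' ∈ r, Disjoint S g'.support) : Disjoint S (layerSupport r) := by
  induction r with
  | nil => exact Finset.disjoint_empty_right S
  | cons g' r ih =>
    rw [ns_layerSupport_cons, Finset.disjoint_union_right]
    exact ⟨h g' List.mem_cons_self, ih (fun g'' hg'' => h g'' (List.mem_cons_of_mem _ hg''))⟩

omit [Fintype Q] in
/-- The gate of a single-gate layer away from its qubit. -/
theorem ns_singleGate_ne (q : Q) (m : Matrix Bool Bool ℂ) {p : Q} (h : p ≠ q) :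
    singleGate q m p = 1 := by
  unfold singleGate
  rw [if_neg h]

/-- The step of the induction for a one-qubit gate. -/
theorem ns_step_one (p : Q) (u : Matrix Bool Bool ℂ) (Hr Wr : Q → Matrix Bool Bool ℂ)
    (Lr : Finset (Finset Q)) (hHp : Hr p = 1) (hpL : ∀ S ∈ Lr, p ∉ S) (ψ : StateVec Q) :
    oneQubitLayer Wr (czLayer Lr (oneQubitLayer Hr (oneQubitLayer (singleGate p u) ψ)))
      = oneQubitLayer (fun p' => Wr p' * singleGate p u p')
          (czLayer Lr (oneQubitLayer Hr ψ)) := by
  have h1 : ∀ p', Hr p' = 1 ∨ singleGate p u p' = 1 := by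
    intro p'
    by_cases hp' : p' = p
    · left
      rw [hp']
      exact hHp
    · right
      exact ns_singleGate_ne p u hp'
  have h2 : ∀ S ∈ Lr, ∀ p' ∈ S, singleGate p u p' = 1 := by
    intro S hS p' hp'
    apply ns_singleGate_ne
    intro e
    rw [e] at hp'
    exact hpL S hS hp'
  rw [oneQubitLayer_comm Hr (singleGate p u) h1 ψ,
    ← oneQubitLayer_czLayer_comm (singleGate p u) Lr h2 (oneQubitLayer Hr ψ),
    oneQubitLayer_comp Wr (singleGate p u)]

/-- The step of the induction for a generalized Toffoli gate, written with its two layers of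
one-qubit gates and its multi-controlled `Z` gate. -/
theorem ns_step_tof (t : Q) (m : Matrix Bool Bool ℂ) (Sg : Finset Q) (ht : t ∈ Sg)
    (Hr Wr : Q → Matrix Bool Bool ℂ) (Lr : Finset (Finset Q))
    (hHS : ∀ p ∈ Sg, Hr p = 1) (hSL : ∀ S ∈ Lr, Disjoint Sg S) (hnot : Sg ∉ Lr)
    (ψ : StateVec Q) :
    oneQubitLayer Wr (czLayer Lr (oneQubitLayer Hr
        (oneQubitLayer (singleGate t m) (czLayer {Sg} (oneQubitLayer (singleGate t m) ψ)))))
      = oneQubitLayer (fun p => Wr p * singleGate t m p)
          (czLayer (insert Sg Lr) (oneQubitLayer (fun p => Hr p * singleGate t m p) ψ)) := by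
  have h1 : ∀ p, Hr p = 1 ∨ singleGate t m p = 1 := by
    intro p
    by_cases hp : p = t
    · left
      rw [hp]
      exact hHS t ht
    · right
      exact ns_singleGate_ne t m hp
  have h2 : ∀ S ∈ ({Sg} : Finset (Finset Q)), ∀ p ∈ S, Hr p = 1 := by
    intro S hS p hp
    rw [Finset.mem_singleton] at hS
    rw [hS] at hp
    exact hHS p hp
  have h3 : ∀ S ∈ Lr, ∀ p ∈ S, singleGate t m p = 1 := by
    intro S hS p hp
    apply ns_singleGate_ne
    intro e
    rw [e] at hp
    exact Finset.disjoint_left.mp (hSL S hS) ht hp
  rw [oneQubitLayer_comm Hr (singleGate t m) h1,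
    oneQubitLayer_czLayer_comm Hr {Sg} h2,
    oneQubitLayer_comp Hr (singleGate t m) ψ,
    ← oneQubitLayer_czLayer_comm (singleGate t m) Lr h3,
    ← czLayer_insert Sg Lr hnot,
    oneQubitLayer_comp Wr (singleGate t m)]

/-- The normal form of a valid layer, with the set of multi-controlled `Z` gates identified as
the set of the supports of its generalized Toffoli gates. -/
theorem ns_normal (l : List (TGate Q)) (hl : LayerValid l) :
    ∃ (H W : Q → Matrix Bool Bool ℂ) (L : Finset (Finset Q)),
      (∀ p, H p ∈ Matrix.unitaryGroup Bool ℂ) ∧ (∀ p, W p ∈ Matrix.unitaryGroup Bool ℂ) ∧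
      (L : Set (Finset Q)).PairwiseDisjoint id ∧
      (∀ p, p ∉ layerSupport l → H p = 1 ∧ W p = 1) ∧
      (∀ S ∈ L, S.Nonempty ∧ S ⊆ layerSupport l) ∧
      L = ((l.filter fun g => g.isRight).map TGate.support).toFinset ∧
      ((l.filter fun g => g.isRight).map TGate.support).Nodup ∧
      ∀ ψ : StateVec Q, layerAct l ψ = oneQubitLayer W (czLayer L (oneQubitLayer H ψ)) := by
  induction l with
  | nil =>
    refine ⟨fun _ => 1, fun _ => 1, ∅, fun _ => one_mem _, fun _ => one_mem _, ?_,
      fun _ _ => ⟨rfl, rfl⟩, ?_, ?_, ?_, fun ψ => ?_⟩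
    · rw [Finset.coe_empty]
      exact Set.pairwiseDisjoint_empty
    · intro S hS
      exact absurd hS (Finset.notMem_empty S)
    · simp
    · simp
    · show ψ = oneQubitLayer (fun _ => 1) (czLayer ∅ (oneQubitLayer (fun _ => 1) ψ))
      rw [oneQubitLayer_one, czLayer_empty, oneQubitLayer_one]
  | cons g rest ih =>
    obtain ⟨hval, hpw⟩ := hl
    rw [List.pairwise_cons] at hpw
    obtain ⟨hdisj, hpw'⟩ := hpw
    have hrest : LayerValid rest :=
      ⟨fun g' hg' => hval g' (List.mem_cons_of_mem _ hg'), hpw'⟩
    obtain ⟨Hr, Wr, Lr, hHr, hWr, hLd, hout, hLr, hLeq, hnd, hact⟩ := ih hrest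
    have hgd : Disjoint g.support (layerSupport rest) :=
      ns_disjoint_layerSupport _ _ hdisj
    have hgval : g.Valid := hval g List.mem_cons_self
    rcases g with ⟨p, u⟩ | ⟨c, t⟩
    · have hu : u ∈ Matrix.unitaryGroup Bool ℂ := hgval
      have hp : p ∉ layerSupport rest := Finset.disjoint_singleton_left.mp hgd
      have hpL : ∀ S ∈ Lr, p ∉ S := fun S hS hpS => hp ((hLr S hS).2 hpS)
      have efil : ((Sum.inl (p, u) :: rest : List (TGate Q)).filter fun g => g.isRight)
          = rest.filter fun g => g.isRight := List.filter_cons_of_neg (by simp)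
      refine ⟨Hr, fun p' => Wr p' * singleGate p u p', Lr, hHr,
        fun p' => mul_mem (hWr p') (singleGate_mem p u hu p'), hLd, ?_, ?_, ?_, ?_, ?_⟩
      · intro p' hp'
        rw [ns_layerSupport_cons, Finset.mem_union, not_or] at hp'
        have hne : p' ≠ p := fun e => hp'.1 (by rw [e]; exact Finset.mem_singleton_self p)
        obtain ⟨e1, e2⟩ := hout p' hp'.2
        refine ⟨e1, ?_⟩
        show Wr p' * singleGate p u p' = 1
        rw [e2, ns_singleGate_ne p u hne, mul_one]
      · intro S hS
        refine ⟨(hLr S hS).1, ?_⟩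
        rw [ns_layerSupport_cons]
        exact (hLr S hS).2.trans Finset.subset_union_right
      · rw [efil]
        exact hLeq
      · rw [efil]
        exact hnd
      · intro ψ
        have e : layerAct (Sum.inl (p, u) :: rest) ψ
            = layerAct rest (oneQubitLayer (singleGate p u) ψ) := rfl
        rw [e, hact]
        exact ns_step_one p u Hr Wr Lr (hout p hp).1 hpL ψ
    · obtain ⟨hcne, htc⟩ : c.Nonempty ∧ t ∉ c := hgval
      have _hc := hcne
      have hgd' : Disjoint (insert t c) (layerSupport rest) := hgd
      have htS : t ∈ insert t c := Finset.mem_insert_self t c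
      have hSgout : ∀ p ∈ insert t c, p ∉ layerSupport rest :=
        fun p hp => Finset.disjoint_left.mp hgd' hp
      have hSL : ∀ S ∈ Lr, Disjoint (insert t c) S :=
        fun S hS => Finset.disjoint_of_subset_right (hLr S hS).2 hgd'
      have hnot : insert t c ∉ Lr := by
        intro hin
        exact hSgout t htS ((hLr _ hin).2 htS)
      have efil : ((Sum.inr (c, t) :: rest : List (TGate Q)).filter fun g => g.isRight)
          = Sum.inr (c, t) :: rest.filter fun g => g.isRight :=
        List.filter_cons_of_pos (by simp)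
      have esup : TGate.support (Sum.inr (c, t) : TGate Q) = insert t c := rfl
      refine ⟨fun p => Hr p * singleGate t hadamard p, fun p => Wr p * singleGate t hadamard p,
        insert (insert t c) Lr,
        fun p => mul_mem (hHr p) (singleGate_mem t hadamard hadamard_mem p),
        fun p => mul_mem (hWr p) (singleGate_mem t hadamard hadamard_mem p), ?_, ?_, ?_, ?_, ?_,
        ?_⟩
      · rw [Finset.coe_insert]
        exact Set.PairwiseDisjoint.insert hLd (fun S hS _ => hSL S hS)
      · intro p hp
        rw [ns_layerSupport_cons, Finset.mem_union, not_or] at hp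
        have hne : p ≠ t := fun e => hp.1 (by rw [e]; exact htS)
        obtain ⟨e1, e2⟩ := hout p hp.2
        constructor
        · show Hr p * singleGate t hadamard p = 1
          rw [e1, ns_singleGate_ne t hadamard hne, mul_one]
        · show Wr p * singleGate t hadamard p = 1
          rw [e2, ns_singleGate_ne t hadamard hne, mul_one]
      · intro S hS
        rw [ns_layerSupport_cons]
        rcases Finset.mem_insert.mp hS with hS | hS
        · rw [hS]
          exact ⟨⟨t, htS⟩, Finset.subset_union_left⟩
        · exact ⟨(hLr S hS).1, (hLr S hS).2.trans Finset.subset_union_right⟩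
      · rw [efil, List.map_cons, List.toFinset_cons, esup, ← hLeq]
      · rw [efil, List.map_cons, List.nodup_cons, esup]
        refine ⟨?_, hnd⟩
        intro hin
        apply hnot
        rw [hLeq, List.mem_toFinset]
        exact hin
      · intro ψ
        have e : layerAct (Sum.inr (c, t) :: rest) ψ
            = layerAct rest (TGate.act (Sum.inr (c, t)) ψ) := rfl
        rw [e, hact, toffoli_act_eq c t htc ψ]
        exact ns_step_tof t hadamard (insert t c) htS Hr Wr Lr
          (fun p hp => (hout p (hSgout p hp)).1) hSL hnot ψ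

/-- A valid layer acts as a layer of one-qubit unitaries, then the multi-controlled `Z` gates on
the supports of its generalized Toffoli gates, then a layer of one-qubit unitaries; these
supports are pairwise disjoint and distinct. -/
theorem layerAct_normal_supp (l : List (TGate Q)) (hl : LayerValid l) :
    ∃ (H W : Q → Matrix Bool Bool ℂ),
      (∀ p, H p ∈ Matrix.unitaryGroup Bool ℂ) ∧ (∀ p, W p ∈ Matrix.unitaryGroup Bool ℂ) ∧
      ((((l.filter fun g => g.isRight).map TGate.support).toFinset : Finset (Finset Q)) :
        Set (Finset Q)).PairwiseDisjoint id ∧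
      ((l.filter fun g => g.isRight).map TGate.support).Nodup ∧
      ∀ ψ : StateVec Q, layerAct l ψ = oneQubitLayer W
        (czLayer ((l.filter fun g => g.isRight).map TGate.support).toFinset
          (oneQubitLayer H ψ)) := by
  obtain ⟨H, W, L, hH, hW, hLd, _, _, hLeq, hnd, hact⟩ := ns_normal l hl
  rw [hLeq] at hLd hact
  exact ⟨H, W, hH, hW, hLd, hnd, hact⟩

end Vale.Agent.Lib.P368
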