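import Vale.Agent.Lib.P368.Adv3.Three
import Vale.Agent.Lib.P368.Adv3.NormSupp
import Vale.Agent.Lib.P368.Adv3.Count

/-!
# P368, three entangling layers: the statement in the gate model of the problem
-/

namespace Vale.Agent.Lib.P368

open Finset

variable {Q : Type} [Fintype Q] [DecidableEq Q]

/-- A circuit `pre ++ l0 :: suf` in which the generalized Toffoli gates of `pre` do not touch
the input qubits and `suf` has entangling depth at most two: the signed sum over all inputs of
the probability of the outcome `b` on qubit `q` is at most `3 (sqrt 2)^n` times the product of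
the factors of the generalized Toffoli gates of the layer `l0`. -/
theorem t_signed_sum_three {n : ℕ} (inp : Fin n ↪ Q) (pre : List (List (TGate Q)))
    (l0 : List (TGate Q)) (suf : List (List (TGate Q)))
    (hvp : ∀ l ∈ pre, LayerValid l) (hv0 : LayerValid l0) (hvs : ∀ l ∈ suf, LayerValid l)
    (hoff : ∀ l ∈ pre, ∀ g ∈ l, g.isRight = true → ∀ j, inp j ∉ g.support)
    (hd : entDepth suf ≤ 2) (q : Q) (b : Bool) :
    |∑ x : Fin n → Bool, sgn x * tOutProb (pre ++ l0 :: suf) inp q x b| ≤
      3 * ((l0.filter fun g => g.isRight).map fun g =>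
        gf (univ.filter fun j => inp j ∈ g.support).card).prod * Real.sqrt 2 ^ n := by
  obtain ⟨w, Φ, hw, hΦ, hpre⟩ := tRun_pre_form inp pre hvp hoff
  obtain ⟨H, W, hH, hW, hL0, hnd, hact⟩ := layerAct_normal_supp l0 hv0
  obtain ⟨pr, last, hlen, _, hpr, hlast, hrun⟩ := tRun_normal_form suf hvs
  obtain ⟨first, v, L1, L2, hfirst, hv', hL1, hL2, hform⟩ :=
    preRun_le_two pr last (hlen.trans_le hd) hpr
  have happ : ∀ ψ : StateVec Q,
      tRun (pre ++ l0 :: suf) ψ = tRun suf (layerAct l0 (tRun pre ψ)) := by
    intro ψ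
    unfold tRun
    rw [List.foldl_append, List.foldl_cons]
  unfold tOutProb
  simp only [happ, hpre, hact, hrun, hform]
  have hmerge : ∀ χ : StateVec Q, oneQubitLayer first (oneQubitLayer W χ) =
      oneQubitLayer (fun p => first p * W p) χ := fun χ => oneQubitLayer_comp first W χ
  simp only [hmerge]
  have h := advice_signed_sum_three inp H (fun p => first p * W p) v last w
    ((l0.filter fun g => g.isRight).map TGate.support).toFinset L1 L2 Φ hH
    (fun p => mul_mem (hfirst p) (hW p)) hv' hlast hw hL0 hL1 hL2 hΦ q b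
  rw [gfProd_supports inp l0 hnd] at h
  calc _ ≤ 3 * (((l0.filter fun g => g.isRight).map fun g =>
        gf (univ.filter fun j => inp j ∈ g.support).card).prod * Real.sqrt 2 ^ n) := h
    _ = _ := by ring

/-- Three entangling layers after a preprocessing of the ancillas: the parity correlation and
the worst-case advantage. -/
theorem depth_three_final {n : ℕ} (inp : Fin n ↪ Q) (pre : List (List (TGate Q)))
    (l0 : List (TGate Q)) (suf : List (List (TGate Q)))
    (hvp : ∀ l ∈ pre, LayerValid l) (hv0 : LayerValid l0) (hvs : ∀ l ∈ suf, LayerValid l)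
    (hoff : ∀ l ∈ pre, ∀ g ∈ l, g.isRight = true → ∀ j, inp j ∉ g.support)
    (hd : entDepth suf ≤ 2) (q : Q) :
    |tParityCorrelation (pre ++ l0 :: suf) inp q| ≤
        6 * ((l0.filter fun g => g.isRight).map fun g =>
          gf (univ.filter fun j => inp j ∈ g.support).card).prod / Real.sqrt 2 ^ n ∧
      ∀ ε : ℝ, (∀ x : Fin n → Bool,
          1 / 2 + ε ≤ tOutProb (pre ++ l0 :: suf) inp q x (parity x)) →
        ε ≤ 3 * ((l0.filter fun g => g.isRight).map fun g =>
          gf (univ.filter fun j => inp j ∈ g.support).card).prod / Real.sqrt 2 ^ n := by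
  have hv : ∀ l ∈ pre ++ l0 :: suf, LayerValid l := by
    intro l hl
    rcases List.mem_append.mp hl with h | h
    · exact hvp l h
    · rcases List.mem_cons.mp h with h | h
      · rw [h]
        exact hv0
      · exact hvs l h
  have h := parity_corr_bound_base
    (3 * ((l0.filter fun g => g.isRight).map fun g =>
      gf (univ.filter fun j => inp j ∈ g.support).card).prod) (Real.sqrt 2)
    (fun x b => tOutProb (pre ++ l0 :: suf) inp q x b)
    (fun x => tOutProb_add (pre ++ l0 :: suf) hv inp q x)
    (fun b => t_signed_sum_three inp pre l0 suf hvp hv0 hvs hoff hd q b)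
  have e1 : ∀ F : ℝ, 2 * (3 * F) * Real.sqrt 2 ^ n / 2 ^ n = 6 * F / Real.sqrt 2 ^ n := by
    intro F
    rw [mul_div_assoc, sqrt_two_pow_div]
    ring
  have e2 : ∀ F : ℝ, 3 * F * Real.sqrt 2 ^ n / 2 ^ n = 3 * F / Real.sqrt 2 ^ n := by
    intro F
    rw [mul_div_assoc, sqrt_two_pow_div]
    ring
  rw [e1, e2] at h
  exact h

end Vale.Agent.Lib.P368
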