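import Vale.Agent.Lib.P368.Adv3.Defs

/-!
# P368, three entangling layers: elementary facts on the one-qubit matrices
-/

namespace Vale.Agent.Lib.P368

open Finset

theorem projOne_mul_colMat (u : Matrix Bool Bool ℂ) (b : Bool) :
    projOne * colMat u b = u true b • e10 := by
  ext i j
  simp only [Matrix.mul_apply, Fintype.sum_bool, projOne, colMat, e10, Matrix.smul_apply,
    smul_eq_mul]
  cases i <;> cases j <;> simp

theorem isContr_e10 : IsContr e10 := by
  intro a b
  have e1 : e10 false false * a + e10 false true * b = 0 := by simp [e10]
  have e2 : e10 true false * a + e10 true true * b = a := by simp [e10]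
  rw [e1, e2, map_zero]
  linarith [Complex.normSq_nonneg b]

/-- The matrix whose first column is `(conj (u 1 0), - conj (u 1 1))` and whose second column is
zero. -/
noncomputable def mt_W (u : Matrix Bool Bool ℂ) : Matrix Bool Bool ℂ :=
  fun i j => if j = false then
    (if i = false then (starRingEnd ℂ) (u true false) else - (starRingEnd ℂ) (u true true))
    else 0

theorem mt_isContr_W (u : Matrix Bool Bool ℂ) (hu : u ∈ Matrix.unitaryGroup Bool ℂ) :
    IsContr (mt_W u) := by
  intro a b
  have e1 : mt_W u false false * a + mt_W u false true * b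
      = (starRingEnd ℂ) (u true false) * a := by
    simp [mt_W]
  have e2 : mt_W u true false * a + mt_W u true true * b
      = - (starRingEnd ℂ) (u true true) * a := by
    simp [mt_W]
  rw [e1, e2, Complex.normSq_mul, Complex.normSq_mul, Complex.normSq_neg, Complex.normSq_conj,
    Complex.normSq_conj]
  have h := unitary_row u hu true
  have h2 : Complex.normSq (u true false) * Complex.normSq a
      + Complex.normSq (u true true) * Complex.normSq a = Complex.normSq a := by
    rw [← add_mul, h, one_mul]
  rw [h2]
  linarith [Complex.normSq_nonneg b]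

theorem mt_nMat_eq (u : Matrix Bool Bool ℂ) : nMat u = u * mt_W u := by
  ext i j
  simp only [nMat, Fintype.sum_bool, Matrix.add_apply, Matrix.smul_apply, Matrix.mul_apply,
    colMat, mt_W, wt, smul_eq_mul]
  cases j
  · simp
    ring
  · simp

theorem isContr_nMat (u : Matrix Bool Bool ℂ) (hu : u ∈ Matrix.unitaryGroup Bool ℂ) :
    IsContr (nMat u) := by
  rw [mt_nMat_eq]
  exact isContr_mul u (mt_W u) (isContr_of_unitary u hu) (mt_isContr_W u hu)

theorem isContr_ppMat (u : Matrix Bool Bool ℂ) (hu : u ∈ Matrix.unitaryGroup Bool ℂ) :
    IsContr (ppMat u) := by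
  intro a b
  have h := unitary_row u hu true
  have hx := Complex.normSq_nonneg (u true false)
  have hy := Complex.normSq_nonneg (u true true)
  have e1 : ppMat u false false * a + ppMat u false true * b = 0 := by
    simp [ppMat, e10, wt]
  have e3 : ppMat u true false
      = (((Complex.normSq (u true false) - Complex.normSq (u true true) : ℝ)) : ℂ) := by
    simp only [ppMat, Fintype.sum_bool, Matrix.add_apply, Matrix.smul_apply, e10, wt,
      smul_eq_mul]
    push_cast
    rw [Complex.normSq_eq_conj_mul_self, Complex.normSq_eq_conj_mul_self]
    simp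
    ring
  have e4 : ppMat u true true = 0 := by
    simp [ppMat, e10, wt]
  have e2 : ppMat u true false * a + ppMat u true true * b
      = (((Complex.normSq (u true false) - Complex.normSq (u true true) : ℝ)) : ℂ) * a := by
    rw [e3, e4, zero_mul, add_zero]
  rw [e1, e2, map_zero, Complex.normSq_mul, Complex.normSq_ofReal]
  have ha := Complex.normSq_nonneg a
  have hb := Complex.normSq_nonneg b
  have hc : (Complex.normSq (u true false) - Complex.normSq (u true true))
      * (Complex.normSq (u true false) - Complex.normSq (u true true)) ≤ 1 := by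
    nlinarith
  nlinarith

theorem gf_nonneg (k : ℕ) : 0 ≤ gf k := by
  unfold gf
  split_ifs
  · norm_num
  · positivity

theorem one_le_gf (k : ℕ) : 1 ≤ gf k := by
  unfold gf
  split_ifs
  · exact le_refl 1
  · have h : (0 : ℝ) ≤ 8 / Real.sqrt 2 ^ k := by positivity
    linarith

end Vale.Agent.Lib.P368
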