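import Vale.Agent.Lib.P368.Adv3.Bound3

/-!
# P368, three entangling layers: the signed sum of the outcome probabilities
-/

namespace Vale.Agent.Lib.P368

open Finset

variable {Q : Type} [Fintype Q] [DecidableEq Q]

/-- The signed sum of the squared norms of one contracted branch is a value of `tForm`, hence
at most the product of the factors times the power `n` of `sqrt 2`, for a vector of norm at
most one. -/
theorem th_bound {n : ℕ} (inp : Fin n ↪ Q) (first V w : Q → Matrix Bool Bool ℂ)
    (L0 L1 : Finset (Finset Q)) (Φ : StateVec Q)
    (hfirst : ∀ p, first p ∈ Matrix.unitaryGroup Bool ℂ)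
    (hV : ∀ p, V p ∈ Matrix.unitaryGroup Bool ℂ)
    (hw : ∀ p, w p ∈ Matrix.unitaryGroup Bool ℂ)
    (hL0 : (L0 : Set (Finset Q)).PairwiseDisjoint id)
    (hL1 : (L1 : Set (Finset Q)).PairwiseDisjoint id) (hΦ : normSqSum Φ ≤ 1)
    (m : Q → Matrix Bool Bool ℂ)
    (hm : ∀ p, IsRow (m p) ∨ m p ∈ Matrix.unitaryGroup Bool ℂ) :
    |∑ y : Q → Bool, (∏ p, wt (inTau inp p) (y p)) *
      normSqSum (oneQubitLayer m (czLayer L1 (oneQubitLayer V (czLayer L0 (oneQubitLayer
        (fun p => first p * (if inTau inp p = true then colMat (w p) (y p) else 1)) Φ)))))| ≤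
      gfProd (inTau inp) L0 * Real.sqrt 2 ^ n := by
  have e : ((∑ y : Q → Bool, (∏ p, wt (inTau inp p) (y p)) *
      normSqSum (oneQubitLayer m (czLayer L1 (oneQubitLayer V (czLayer L0 (oneQubitLayer
        (fun p => first p * (if inTau inp p = true then colMat (w p) (y p) else 1))
        Φ))))) : ℝ) : ℂ)
      = tForm (inTau inp)
          (fun p c => first p * (if inTau inp p = true then colMat (w p) c else 1))
          (fun p c => first p * (if inTau inp p = true then colMat (w p) c else 1)) L0 V L1
          (fun p => (m p).conjTranspose * m p) Φ Φ := by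
    unfold tForm
    rw [Complex.ofReal_sum]
    refine Finset.sum_congr rfl fun y _ => ?_
    rw [Complex.ofReal_mul, normSqSum_eq_expVal]
    rfl
  have hadm : Adm2 (inTau inp)
      (fun p c => first p * (if inTau inp p = true then colMat (w p) c else 1))
      (fun p c => first p * (if inTau inp p = true then colMat (w p) c else 1)) := by
    intro p
    constructor
    · intro hp
      have hc : ∀ c, first p * (if inTau inp p = true then colMat (w p) c else 1) =
          colMat (first p * w p) c := by
        intro c
        rw [if_pos hp, colMat_mul]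
      exact ⟨first p * w p, mul_mem (hfirst p) (hw p), hc, hc⟩
    · intro hp
      have hc : IsContr (first p * (if inTau inp p = true then colMat (w p) false else 1)) := by
        rw [hp, if_neg Bool.false_ne_true, mul_one]
        exact isContr_of_unitary _ (hfirst p)
      exact ⟨hc, hc⟩
  have hb := tForm_bound L0 hL0 V L1 m hV hL1 hm (inTau inp)
    (fun p c => first p * (if inTau inp p = true then colMat (w p) c else 1))
    (fun p c => first p * (if inTau inp p = true then colMat (w p) c else 1))
    hadm Φ Φ
  rw [← e, Complex.norm_real, Real.norm_eq_abs, card_inTau,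
    Real.mul_self_sqrt (gd_normSqSum_nonneg Φ)] at hb
  have hgp : 0 ≤ gfProd (inTau inp) L0 := by
    unfold gfProd
    exact Finset.prod_nonneg fun A _ => gf_nonneg _
  have hg : 0 ≤ gfProd (inTau inp) L0 * Real.sqrt 2 ^ n :=
    mul_nonneg hgp (by positivity)
  calc |∑ y : Q → Bool, (∏ p, wt (inTau inp p) (y p)) *
      normSqSum (oneQubitLayer m (czLayer L1 (oneQubitLayer V (czLayer L0 (oneQubitLayer
        (fun p => first p * (if inTau inp p = true then colMat (w p) (y p) else 1)) Φ)))))|
      ≤ gfProd (inTau inp) L0 * Real.sqrt 2 ^ n * normSqSum Φ := hb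
    _ ≤ gfProd (inTau inp) L0 * Real.sqrt 2 ^ n * 1 := mul_le_mul_of_nonneg_left hΦ hg
    _ = gfProd (inTau inp) L0 * Real.sqrt 2 ^ n := mul_one _

/-- The same bound with the sum over the inputs `x` located on the input qubits. -/
theorem th_bound_x {n : ℕ} (inp : Fin n ↪ Q) (first V w : Q → Matrix Bool Bool ℂ)
    (L0 L1 : Finset (Finset Q)) (Φ : StateVec Q)
    (hfirst : ∀ p, first p ∈ Matrix.unitaryGroup Bool ℂ)
    (hV : ∀ p, V p ∈ Matrix.unitaryGroup Bool ℂ)
    (hw : ∀ p, w p ∈ Matrix.unitaryGroup Bool ℂ)
    (hL0 : (L0 : Set (Finset Q)).PairwiseDisjoint id)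
    (hL1 : (L1 : Set (Finset Q)).PairwiseDisjoint id) (hΦ : normSqSum Φ ≤ 1)
    (m : Q → Matrix Bool Bool ℂ)
    (hm : ∀ p, IsRow (m p) ∨ m p ∈ Matrix.unitaryGroup Bool ℂ) :
    |∑ x : Fin n → Bool, sgn x *
      normSqSum (oneQubitLayer m (czLayer L1 (oneQubitLayer V (czLayer L0 (oneQubitLayer
        (fun p => first p * (if inTau inp p = true then
          colMat (w p) (Function.extend inp x (fun _ => false) p) else 1)) Φ)))))| ≤
      gfProd (inTau inp) L0 * Real.sqrt 2 ^ n := by
  have h := sum_sgn_extend inp (fun y : Q → Bool =>
    normSqSum (oneQubitLayer m (czLayer L1 (oneQubitLayer V (czLayer L0 (oneQubitLayer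
      (fun p => first p * (if inTau inp p = true then colMat (w p) (y p) else 1)) Φ))))))
  have hb := th_bound inp first V w L0 L1 Φ hfirst hV hw hL0 hL1 hΦ m hm
  rw [← h] at hb
  exact hb

/-- Three layers of multi-controlled `Z` gates with one-qubit unitaries around them, applied to
the states `Λ_x Φ`: the input qubit `p` carries the column `x p` of the unitary `w p`, and `Φ`
is any vector of norm at most one.  The signed sum over the inputs of the probability of the
outcome `b` on qubit `q` is at most `3 (sqrt 2)^n` times the product of the factors of the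
gates of the first layer. -/
theorem advice_signed_sum_three {n : ℕ} (inp : Fin n ↪ Q)
    (first V v last w : Q → Matrix Bool Bool ℂ)
    (L0 L1 L2 : Finset (Finset Q)) (Φ : StateVec Q)
    (hfirst : ∀ p, first p ∈ Matrix.unitaryGroup Bool ℂ)
    (hV : ∀ p, V p ∈ Matrix.unitaryGroup Bool ℂ)
    (hv : ∀ p, v p ∈ Matrix.unitaryGroup Bool ℂ)
    (hlast : ∀ p, last p ∈ Matrix.unitaryGroup Bool ℂ)
    (hw : ∀ p, w p ∈ Matrix.unitaryGroup Bool ℂ)
    (hL0 : (L0 : Set (Finset Q)).PairwiseDisjoint id)
    (hL1 : (L1 : Set (Finset Q)).PairwiseDisjoint id)
    (hL2 : (L2 : Set (Finset Q)).PairwiseDisjoint id) (hΦ : normSqSum Φ ≤ 1) (q : Q) (b : Bool) :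
    |∑ x : Fin n → Bool, sgn x * measProb (oneQubitLayer last (oneQubitLayer (fun _ => 1)
      (czLayer L2 (oneQubitLayer v (czLayer L1 (oneQubitLayer V (czLayer L0
        (oneQubitLayer first (oneQubitLayer (fun p => if inTau inp p = true then
          colMat (w p) (Function.extend inp x (fun _ => false) p) else 1) Φ))))))))) q b| ≤
      3 * (gfProd (inTau inp) L0 * Real.sqrt 2 ^ n) := by
  obtain ⟨B', r', hr', hmeas⟩ := measProb_depth_two L2 hL2 (last q) q b
  have hrow : Complex.normSq (last q b false) + Complex.normSq (last q b true) = 1 :=
    unitary_row _ (hlast q) b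
  have hrow' : Complex.normSq (r' false) + Complex.normSq (r' true) ≤ 1 := by
    rw [hr' false, hr' true]
    exact le_of_eq hrow
  have hc0 : ∀ p, IsRow ((if p = q then rowMat b (last q b) else 1) * v p) ∨
      (if p = q then rowMat b (last q b) else 1) * v p ∈ Matrix.unitaryGroup Bool ℂ := by
    intro p
    split_ifs
    · exact Or.inl (isRow_mul_unitary _ _ (isRow_rowMat b _ (le_of_eq hrow)) (hv p))
    · right
      rw [one_mul]
      exact hv p
  have hc1 : ∀ p, IsRow ((if p = q then rowMat b (last q b) else
      if p ∈ B' then projOne else 1) * v p) ∨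
      (if p = q then rowMat b (last q b) else
        if p ∈ B' then projOne else 1) * v p ∈ Matrix.unitaryGroup Bool ℂ := by
    intro p
    split_ifs
    · exact Or.inl (isRow_mul_unitary _ _ (isRow_rowMat b _ (le_of_eq hrow)) (hv p))
    · exact Or.inl (isRow_mul_unitary _ _ isRow_projOne (hv p))
    · right
      rw [one_mul]
      exact hv p
  have hc2 : ∀ p, IsRow ((if p = q then rowMat b r' else
      if p ∈ B' then projOne else 1) * v p) ∨
      (if p = q then rowMat b r' else
        if p ∈ B' then projOne else 1) * v p ∈ Matrix.unitaryGroup Bool ℂ := by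
    intro p
    split_ifs
    · exact Or.inl (isRow_mul_unitary _ _ (isRow_rowMat b _ hrow') (hv p))
    · exact Or.inl (isRow_mul_unitary _ _ isRow_projOne (hv p))
    · right
      rw [one_mul]
      exact hv p
  have hterm : ∀ x : Fin n → Bool, measProb (oneQubitLayer last (oneQubitLayer (fun _ => 1)
      (czLayer L2 (oneQubitLayer v (czLayer L1 (oneQubitLayer V (czLayer L0
        (oneQubitLayer first (oneQubitLayer (fun p => if inTau inp p = true then
          colMat (w p) (Function.extend inp x (fun _ => false) p) else 1) Φ))))))))) q b =
      normSqSum (oneQubitLayer (fun p => (if p = q then rowMat b (last q b) else 1) * v p)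
        (czLayer L1 (oneQubitLayer V (czLayer L0 (oneQubitLayer
          (fun p => first p * (if inTau inp p = true then
            colMat (w p) (Function.extend inp x (fun _ => false) p) else 1)) Φ)))))
      - normSqSum (oneQubitLayer (fun p => (if p = q then rowMat b (last q b) else
          if p ∈ B' then projOne else 1) * v p)
        (czLayer L1 (oneQubitLayer V (czLayer L0 (oneQubitLayer
          (fun p => first p * (if inTau inp p = true then
            colMat (w p) (Function.extend inp x (fun _ => false) p) else 1)) Φ)))))
      + normSqSum (oneQubitLayer (fun p => (if p = q then rowMat b r' else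
          if p ∈ B' then projOne else 1) * v p)
        (czLayer L1 (oneQubitLayer V (czLayer L0 (oneQubitLayer
          (fun p => first p * (if inTau inp p = true then
            colMat (w p) (Function.extend inp x (fun _ => false) p) else 1)) Φ))))) := by
    intro x
    rw [oneQubitLayer_one, oneQubitLayer_comp first]
    have h1 := measProb_oneQubitLayer_local last hlast
      (czLayer L2 (oneQubitLayer v (czLayer L1 (oneQubitLayer V (czLayer L0 (oneQubitLayer
        (fun p => first p * (if inTau inp p = true then
            colMat (w p) (Function.extend inp x (fun _ => false) p) else 1)) Φ)))))) q b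
    rw [h1]
    have h2 := hmeas (oneQubitLayer v (czLayer L1 (oneQubitLayer V (czLayer L0 (oneQubitLayer
        (fun p => first p * (if inTau inp p = true then
            colMat (w p) (Function.extend inp x (fun _ => false) p) else 1)) Φ)))))
    rw [h2, oneQubitLayer_comp, oneQubitLayer_comp, oneQubitLayer_comp]
  have b0 := th_bound_x inp first V w L0 L1 Φ hfirst hV hw hL0 hL1 hΦ _ hc0
  have b1 := th_bound_x inp first V w L0 L1 Φ hfirst hV hw hL0 hL1 hΦ _ hc1
  have b2 := th_bound_x inp first V w L0 L1 Φ hfirst hV hw hL0 hL1 hΦ _ hc2
  have hsum : (∑ x : Fin n → Bool, sgn x * measProb (oneQubitLayer last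
      (oneQubitLayer (fun _ => 1)
      (czLayer L2 (oneQubitLayer v (czLayer L1 (oneQubitLayer V (czLayer L0
        (oneQubitLayer first (oneQubitLayer (fun p => if inTau inp p = true then
          colMat (w p) (Function.extend inp x (fun _ => false) p) else 1) Φ))))))))) q b) =
      (∑ x : Fin n → Bool, sgn x *
        normSqSum (oneQubitLayer (fun p => (if p = q then rowMat b (last q b) else 1) * v p)
        (czLayer L1 (oneQubitLayer V (czLayer L0 (oneQubitLayer
          (fun p => first p * (if inTau inp p = true then
            colMat (w p) (Function.extend inp x (fun _ => false) p) else 1)) Φ))))))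
      - (∑ x : Fin n → Bool, sgn x *
        normSqSum (oneQubitLayer (fun p => (if p = q then rowMat b (last q b) else
          if p ∈ B' then projOne else 1) * v p)
        (czLayer L1 (oneQubitLayer V (czLayer L0 (oneQubitLayer
          (fun p => first p * (if inTau inp p = true then
            colMat (w p) (Function.extend inp x (fun _ => false) p) else 1)) Φ))))))
      + (∑ x : Fin n → Bool, sgn x *
        normSqSum (oneQubitLayer (fun p => (if p = q then rowMat b r' else
          if p ∈ B' then projOne else 1) * v p)
        (czLayer L1 (oneQubitLayer V (czLayer L0 (oneQubitLayer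
          (fun p => first p * (if inTau inp p = true then
            colMat (w p) (Function.extend inp x (fun _ => false) p) else 1)) Φ)))))) := by
    rw [← Finset.sum_sub_distrib, ← Finset.sum_add_distrib]
    refine Finset.sum_congr rfl fun x _ => ?_
    rw [hterm]
    ring
  rw [hsum]
  have t1 := abs_add_le
    ((∑ x : Fin n → Bool, sgn x *
        normSqSum (oneQubitLayer (fun p => (if p = q then rowMat b (last q b) else 1) * v p)
        (czLayer L1 (oneQubitLayer V (czLayer L0 (oneQubitLayer
          (fun p => first p * (if inTau inp p = true then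
            colMat (w p) (Function.extend inp x (fun _ => false) p) else 1)) Φ))))))
      - (∑ x : Fin n → Bool, sgn x *
        normSqSum (oneQubitLayer (fun p => (if p = q then rowMat b (last q b) else
          if p ∈ B' then projOne else 1) * v p)
        (czLayer L1 (oneQubitLayer V (czLayer L0 (oneQubitLayer
          (fun p => first p * (if inTau inp p = true then
            colMat (w p) (Function.extend inp x (fun _ => false) p) else 1)) Φ)))))))
    (∑ x : Fin n → Bool, sgn x *
        normSqSum (oneQubitLayer (fun p => (if p = q then rowMat b r' else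
          if p ∈ B' then projOne else 1) * v p)
        (czLayer L1 (oneQubitLayer V (czLayer L0 (oneQubitLayer
          (fun p => first p * (if inTau inp p = true then
            colMat (w p) (Function.extend inp x (fun _ => false) p) else 1)) Φ))))))
  have t2 := abs_sub
    (∑ x : Fin n → Bool, sgn x *
        normSqSum (oneQubitLayer (fun p => (if p = q then rowMat b (last q b) else 1) * v p)
        (czLayer L1 (oneQubitLayer V (czLayer L0 (oneQubitLayer
          (fun p => first p * (if inTau inp p = true then
            colMat (w p) (Function.extend inp x (fun _ => false) p) else 1)) Φ))))))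
    (∑ x : Fin n → Bool, sgn x *
        normSqSum (oneQubitLayer (fun p => (if p = q then rowMat b (last q b) else
          if p ∈ B' then projOne else 1) * v p)
        (czLayer L1 (oneQubitLayer V (czLayer L0 (oneQubitLayer
          (fun p => first p * (if inTau inp p = true then
            colMat (w p) (Function.extend inp x (fun _ => false) p) else 1)) Φ))))))
  linarith

end Vale.Agent.Lib.P368
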